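import Vale.Agent.P159.Defs
import Vale.Agent.P159.Helicity
import Vale.Agent.P159.H353.TriDefs

/-!
Literal interface of module (I) (initial condition at `b_c`), project T1.

ONE geometry: the sites are `V n = ZMod n × ZMod n`; free box = only the edges `inn n` which do not
wrap around; torus = all edges.  The massive measures are given by a quadratic form `Q ≥ 0`.
-/

namespace Vale.Agent.P159.TM.SpecI

open Finset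

abbrev V (n : ℕ) : Type := ZMod n × ZMod n

/-- the edges are `(x, false) : x → x + (1,0)` and `(x, true) : x → x + (0,1)` -/
def tgt {n : ℕ} (e : V n × Bool) : V n :=
  if e.2 then (e.1.1, e.1.2 + 1) else (e.1.1 + 1, e.1.2)

/-- the edges of the free box -/
def inn (n : ℕ) [NeZero n] : Finset (V n × Bool) :=
  univ.filter fun e => if e.2 then e.1.2.val + 1 < n else e.1.1.val + 1 < n

/-- the boundary of the box -/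
def ring (n : ℕ) [NeZero n] : Finset (V n) :=
  univ.filter fun x => x.1.val = 0 ∨ x.1.val + 1 = n ∨ x.2.val = 0 ∨ x.2.val + 1 = n

/-- height weight: active edges `es`, heights `0` on `X`, mass form `Q` -/
noncomputable def wt {n : ℕ} (b : ℝ) (es : Finset (V n × Bool)) (X : Finset (V n))
    (Q : (V n → ℤ) → ℝ) (h : V n → ℤ) : ℝ := by
  classical
  exact (if ∀ x ∈ X, h x = 0 then 1 else 0) *
    (∏ e ∈ es, Vale.Agent.P159.H353.wI b (h (tgt e) - h e.1)) * Real.exp (-(Q h) / 2)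

/-- expectation -/
noncomputable def ex {n : ℕ} (b : ℝ) (es : Finset (V n × Bool)) (X : Finset (V n))
    (Q : (V n → ℤ) → ℝ) (F : (V n → ℤ) → ℝ) : ℝ :=
  (∑' h : V n → ℤ, wt b es X Q h * F h) / ∑' h : V n → ℤ, wt b es X Q h

/-- linear functional -/
def pr {n : ℕ} [NeZero n] (φ : V n → ℝ) (h : V n → ℤ) : ℝ := ∑ x, φ x * (h x : ℝ)

/-- the full mass `ε ∑ h_x²` -/
def full {n : ℕ} [NeZero n] (ε : ℝ) (h : V n → ℤ) : ℝ := ε * ∑ x, (h x : ℝ) ^ 2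

/-- average over the cell number `c` of side `r`, i.e. over `[c₁ r, (c₁+1) r) × [c₂ r, (c₂+1) r)` -/
noncomputable def avg {n : ℕ} (r : ℕ) (c : ℕ × ℕ) (h : V n → ℤ) : ℝ :=
  (∑ i ∈ range r, ∑ j ∈ range r,
    (h (((c.1 * r + i : ℕ) : ZMod n), ((c.2 * r + j : ℕ) : ZMod n)) : ℝ)) / (r : ℝ) ^ 2

/-- `n = 2 ^ k`: mass on the averages over the cells of level `a` (side `2 ^ (k - a)`):
`κ²` times the mean over the `4 ^ a` cells of the squares of the cell averages -/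
noncomputable def massA (κ : ℝ) (k a : ℕ) (h : V (2 ^ k) → ℤ) : ℝ :=
  κ ^ 2 * (∑ c ∈ range (2 ^ a) ×ˢ range (2 ^ a), avg (2 ^ (k - a)) c h ^ 2) / 4 ^ a

/-- the mass `ε` with `ξ = ε^{-1/2} = n / κ`: on the box of side `2 ^ k` -/
noncomputable def epsK (κ : ℝ) (k : ℕ) : ℝ := κ ^ 2 / 4 ^ k

/-- free box of side `2 ^ k` with the full mass -/
noncomputable def exF (b κ : ℝ) (k : ℕ) (F : (V (2 ^ k) → ℤ) → ℝ) : ℝ :=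
  ex b (inn (2 ^ k)) ∅ (full (epsK κ k)) F

/-- free box of side `2 ^ k` with the mass on the cell averages of level `a` -/
noncomputable def exA (b κ : ℝ) (k a : ℕ) (F : (V (2 ^ k) → ℤ) → ℝ) : ℝ :=
  ex b (inn (2 ^ k)) ∅ (massA κ k a) F

/-- box of side `2 ^ k` with heights `0` on the ring and the full mass -/
noncomputable def exD (b κ : ℝ) (k : ℕ) (F : (V (2 ^ k) → ℤ) → ℝ) : ℝ :=
  ex b (inn (2 ^ k)) (ring (2 ^ k)) (full (epsK κ k)) F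

/-- torus of side `2 ^ k` with the full mass -/
noncomputable def exT (b κ : ℝ) (k : ℕ) (F : (V (2 ^ k) → ℤ) → ℝ) : ℝ :=
  ex b univ ∅ (full (epsK κ k)) F

/-- `Ĝ(2πj/n · e₁)` on the torus -/
noncomputable def Ghat (b κ : ℝ) (k : ℕ) (j : ℕ) : ℝ :=
  ∑ z : V (2 ^ k), exT b κ k (fun h => (h 0 : ℝ) * (h z : ℝ)) *
    Real.cos (2 * Real.pi * j * (z.1.val : ℝ) / 2 ^ k)

/-- the mode `m` in direction 1 of the box (`fmode N m 0` of GaussianLimit, `N + 1 = 2 ^ k`) -/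
noncomputable def fm (k m : ℕ) (h : V (2 ^ k) → ℤ) : ℝ :=
  (∑ x : V (2 ^ k), (h x : ℝ) * Real.cos (m * Real.pi * (((x.1.val : ℝ) + 1 / 2) / 2 ^ k))) / 4 ^ k

/-- average over `[i/2^s, (i+1)/2^s]` of `cos (m π x)` -/
noncomputable def cavg (s i m : ℕ) : ℝ :=
  2 ^ s * ∫ x in ((i : ℝ) / 2 ^ s)..(((i : ℝ) + 1) / 2 ^ s), Real.cos (m * Real.pi * x)

/-- mean of `cos² (m π x)` -/
noncomputable def cn (m : ℕ) : ℝ := if m = 0 then 1 else 1 / 2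

/-! ### the statements -/

/-- (UV) [574]: the mass on the modes inside the cells of level `a` is harmless -/
def UV (b : ℝ) : Prop :=
  ∀ κ : ℝ, 0 < κ → ∃ C c : ℝ, 0 < C ∧ 0 < c ∧ ∀ k a : ℕ, a ≤ k → ∀ φ : V (2 ^ k) → ℝ,
    (∀ x, |φ x| ≤ 1 / 4 ^ k) →
      exA b κ k a (fun h => pr φ h ^ 2) - C * (2 : ℝ) ^ (-(c * a)) ≤
        exF b κ k (fun h => pr φ h ^ 2)

/-- (IGm) [963]: lower bound for the plane waves of the free box, mass on cell averages -/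
def IGm (b : ℝ) : Prop :=
  0 < helicity b → ∀ κ : ℝ, 0 < κ → ∀ a m : ℕ, 1 ≤ m → ∀ δ : ℝ, 0 < δ → ∃ k₀ : ℕ, ∀ k : ℕ, k₀ ≤ k →
    (1 - δ) * ((1 / 2) / (κ ^ 2 + Real.pi ^ 2 * m ^ 2 / helicity b)) ≤
      exA b κ k a (fun h => fm k m h ^ 2)

/-- (IGc) [963/968]: lower bound for one cell average of level `s`, mass on cell averages -/
def IGc (b : ℝ) : Prop :=
  0 < helicity b → ∀ κ : ℝ, 0 < κ → ∀ a s : ℕ, ∀ i j : ℕ, i < 2 ^ s → j < 2 ^ s →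
    ∀ K : Finset (ℕ × ℕ), ∀ δ : ℝ, 0 < δ → ∃ k₀ : ℕ, ∀ k : ℕ, k₀ ≤ k → 
    ∑ m ∈ K, (cavg s i m.1 * cavg s j m.2) ^ 2 /
        (cn m.1 * cn m.2 * (κ ^ 2 + Real.pi ^ 2 * ((m.1 : ℝ) ^ 2 + (m.2 : ℝ) ^ 2) / helicity b)) - δ ≤
      exA b κ k a (fun h => avg (2 ^ (k - s)) (i, j) h ^ 2)

/-- (LOGM) elementary: the mode sum of a cell of side `2^{-(i+t)}` with `κ = 2^i` is at least
`v t` -/
def LOGM : Prop :=
  ∀ Y : ℝ, 0 < Y → ∃ v : ℝ, 0 < v ∧ ∃ t₀ : ℕ, ∀ t : ℕ, t₀ ≤ t → ∀ i : ℕ, ∀ i₁ j₁ : ℕ,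
    i₁ < 2 ^ (i + t) → j₁ < 2 ^ (i + t) → ∃ K : Finset (ℕ × ℕ), v * t ≤
      ∑ m ∈ K, (cavg (i + t) i₁ m.1 * cavg (i + t) j₁ m.2) ^ 2 /
        (cn m.1 * cn m.2 * (((2 : ℝ) ^ i) ^ 2 +
          Real.pi ^ 2 * ((m.1 : ℝ) ^ 2 + (m.2 : ℝ) ^ 2) / Y))

/-- (SUSM) elementary: the mode sum of a cell of side `2^{-s}`, `s ≤ i`, with `κ = 2^i`, i.e. a cell
of side `2^(i-s) ξ`, is at least `4^s / 4^i` up to the relative error `C / 2^(i-s) + δ` -/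
def SUSM : Prop :=
  ∀ Y : ℝ, 0 < Y → ∃ C : ℝ, 0 < C ∧ ∀ i s : ℕ, s ≤ i → ∀ i₁ j₁ : ℕ, i₁ < 2 ^ s → j₁ < 2 ^ s →
    ∀ δ : ℝ, 0 < δ → ∃ K : Finset (ℕ × ℕ), (1 - C / 2 ^ (i - s) - δ) * (4 ^ s / 4 ^ i) ≤
      ∑ m ∈ K, (cavg s i₁ m.1 * cavg s j₁ m.2) ^ 2 /
        (cn m.1 * cn m.2 * (((2 : ℝ) ^ i) ^ 2 +
          Real.pi ^ 2 * ((m.1 : ℝ) ^ 2 + (m.2 : ℝ) ^ 2) / Y))

/-- (IVAR): `κ = 2^i`, `n = 2^k`, `ξ = 2^(k-i)`: all cells of side `ξ / 2^t` have variance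
`≥ v t` -/
def IVAR (b : ℝ) : Prop :=
  ∃ v : ℝ, 0 < v ∧ ∃ t₀ : ℕ, ∀ t : ℕ, t₀ ≤ t → ∀ i : ℕ, ∃ k₀ : ℕ, i + t ≤ k₀ ∧ ∀ k : ℕ, k₀ ≤ k →
    ∀ i₁ j₁ : ℕ, i₁ < 2 ^ (i + t) → j₁ < 2 ^ (i + t) →
      v * t ≤ exF b (2 ^ i) k (fun h => avg (2 ^ (k - (i + t))) (i₁, j₁) h ^ 2)

/-- (ISUS): `κ = 2^i`, `n = 2^k`, `ξ = 2^(k-i)`: every cell of side `2^(i-s) ξ` satisfies
`E (∑_{x ∈ cell} h_x)² ≥ (1 - C 2^{-(i-s)} - δ) |cell| ξ²` -/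
def ISUS (b : ℝ) : Prop :=
  ∃ C : ℝ, 0 < C ∧ ∀ i s : ℕ, s ≤ i → ∀ δ : ℝ, 0 < δ → ∃ k₀ : ℕ, i ≤ k₀ ∧ ∀ k : ℕ, k₀ ≤ k →
    ∀ i₁ j₁ : ℕ, i₁ < 2 ^ s → j₁ < 2 ^ s →
      (1 - C / 2 ^ (i - s) - δ) * (4 ^ s / 4 ^ i) ≤
        exF b (2 ^ i) k (fun h => avg (2 ^ (k - s)) (i₁, j₁) h ^ 2)

/-- (IH) [519/179]: free box and ring box differ little, with a rate in `κ = 2^i` -/
def IH (b : ℝ) : Prop :=
  IVAR b → ISUS b → ∃ C c : ℝ, 0 < C ∧ 0 < c ∧ ∃ i₀ : ℕ, ∀ i : ℕ, i₀ ≤ i → ∃ k₀ : ℕ, ∀ k : ℕ,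
    k₀ ≤ k → ∀ φ : V (2 ^ k) → ℝ, (∀ x, |φ x| ≤ 1 / 4 ^ k) →
      exF b (2 ^ i) k (fun h => pr φ h ^ 2) - C * (2 : ℝ) ^ (-(c * i)) / 4 ^ i ≤
        exD b (2 ^ i) k (fun h => pr φ h ^ 2)

/-- (TOR): pinning lowers the variance (instance of MONO) -/
def TOR (b : ℝ) : Prop :=
  ∀ κ : ℝ, 0 < κ → ∀ k : ℕ, ∀ φ : V (2 ^ k) → ℝ,
    exD b κ k (fun h => pr φ h ^ 2) ≤ exT b κ k (fun h => pr φ h ^ 2)

/-- (WIN) = output of (I): lower bound for the plane waves on one axis of the torus of side `2^k`,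
`κ = 2^i`, `ξ = 2^(k-i)`, `ε = ξ⁻²`, for every fixed `j`; the rate is uniform in `j` -/
def WIN (b : ℝ) : Prop :=
  0 < helicity b → ∃ C c : ℝ, 0 < C ∧ 0 < c ∧ ∃ i₀ : ℕ, ∀ i : ℕ, i₀ ≤ i → ∀ j : ℕ, 1 ≤ j →
    ∀ δ : ℝ, 0 < δ → ∃ k₀ : ℕ, ∀ k : ℕ, k₀ ≤ k →
      (1 / (1 + (2 * Real.pi * j / 2 ^ i) ^ 2 / helicity b) - C * (2 : ℝ) ^ (-(c * i)) - δ) /
        epsK (2 ^ i) k ≤ Ghat b (2 ^ i) k j

end Vale.Agent.P159.TM.SpecI
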