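import Vale.Agent.P159.H353.TriDefs
import Vale.Agent.P159.TM.H104.Mass
import Vale.Agent.P159.TM.H859.LogC
import Vale.Agent.P159.TM.H859.Rec

/-!
P159, project T1: literal interface of part C (one renormalisation step at zero charge energy).

Torus `Tor N = ZMod N × ZMod N` with `N = K M ξ`; masses `ms ξ = ξ⁻²` at all sites; norm `H859.tn`;
energy `H859.dirE`; the functional `U`, its derivatives `dU, ddU, dddU` and the covariance `Cf` in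
the real background `f` are those of `H104/Mass` (`lin m ψ h = ∑ m x ψ x h x` of `H870`).

Input from the previous step: `QU`.  Input from part B: `BOut`.  Output: `StepC`.
-/

namespace Vale.Agent.P159.TM.SpecC

open Finset
open Vale.Agent.P159.TM.H859 (tn dirE Mn)
open Vale.Agent.P159.TM.H104 (ddU Cf)
open Vale.Agent.P159.TM.H870 (lin)

abbrev Tor (N : ℕ) : Type := ZMod N × ZMod N

/-- the weight of the torus with coupling `b` -/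
noncomputable def wT (b : ℝ) (N : ℕ) [NeZero N] (h : Tor N → ℤ) : ℝ :=
  ∏ x : Tor N, (Vale.Agent.P159.H353.wI b (h (x + (1, 0)) - h x) *
    Vale.Agent.P159.H353.wI b (h (x + (0, 1)) - h x))

/-- mass `ξ⁻²` at every site -/
noncomputable def ms {N : ℕ} (ξ : ℝ) : Tor N → ℝ := fun _ => 1 / ξ ^ 2

/-- Lipschitz with respect to the Euclidean norm of the torus -/
def LipT {N : ℕ} (L : ℝ) (f : Tor N → ℝ) : Prop := ∀ x y, |f x - f y| ≤ L * tn (x - y)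

/-- the one-scale hypothesis `U''(0)[u,u] ≤ y ε |u|² + a |∇u|²`, `ε = ξ⁻²` -/
def QU {N : ℕ} [NeZero N] (w : (Tor N → ℤ) → ℝ) (ξ y a : ℝ) : Prop :=
  ∀ u : Tor N → ℝ, ddU w (ms ξ) 0 u u ≤ y / ξ ^ 2 * ∑ x, u x ^ 2 + a * dirE u

/-- output of part B: clustering in every background with slope at most `L` -/
def BOut {N : ℕ} [NeZero N] (w : (Tor N → ℤ) → ℝ) (ξ L Cb cb : ℝ) : Prop :=
  ∀ f : Tor N → ℝ, LipT L f → ∀ (x₀ y₀ : Tor N) (u v : Tor N → ℝ),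
    (∀ x, 0 ≤ u x ∧ u x ≤ 1) → (∀ x, 0 ≤ v x ∧ v x ≤ 1) →
    (∀ x, u x ≠ 0 → tn (x - x₀) ≤ ξ) → (∀ x, v x ≠ 0 → tn (x - y₀) ≤ ξ) →
    Cf w (ms ξ) f (lin (ms ξ) u) (lin (ms ξ) v) ≤ Cb * Real.exp (-(cb * tn (x₀ - y₀) / ξ))

/-- `K = ⌈k log (1/y)⌉ + 1` -/
noncomputable def Kn (k : ℕ) (y : ℝ) : ℕ := ⌈(k : ℝ) * Real.log (1 / y)⌉₊ + 1

/-- output of part C: on the torus of side `K M ξ` the quantity `κ V` at the scale `M ξ` is at
most `y/4` per coarse site of side `M ξ` -/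
def StepC (b₁ b₂ δ L₀ Cb cb : ℝ) : Prop :=
  ∃ k₀ : ℕ, ∀ k : ℕ, k₀ ≤ k → ∃ p : ℕ, 1 ≤ p ∧ ∃ ys X : ℝ, 0 < ys ∧
    ∀ (b y a : ℝ) (ξ N : ℕ) [NeZero N], b₁ ≤ b → b ≤ b₂ → X ≤ ξ → 0 < y → y ≤ ys →
      0 ≤ a → a ≤ Real.pi / 2 - δ → N = Kn k y * Mn p y * ξ →
      QU (wT b N) ξ y a → BOut (wT b N) ξ (L₀ / ξ) Cb cb →
      ddU (wT b N) (ms ((Mn p y : ℝ) * ξ)) 0 (fun _ => 1) (fun _ => 1) ≤
        y / 4 * (Kn k y : ℝ) ^ 2

end Vale.Agent.P159.TM.SpecC
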