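import Vale.Agent.P159.TM.H60.FK
import Vale.Agent.P159.TM.H576.Inst
import Vale.Agent.P159.TM.H459.Tor
import Vale.Agent.P159.TM.H764.Hyp
import Vale.Agent.P159.TM.Spec.C
import Vale.Agent.P159.T1.H897.LogC
import Vale.Agent.P159.H353.Coef

/-!
P159 / T1, row SPECAB: THE TORUS LETTERS. Everything is an instance of the landed abstract files:
`H60` (systems `two`, `one`, clusters), `H576` (`Ex`, `mf`), `H459` (`tS`, `tT`, `ball`, `sd`,
`OEv`), `H764` (`Hyp`, `Gh`), `SpecC` (`wT`, `ms`, `QU`, `BOut`), `H104` (`Cf`), `T1.H897`.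
`ξ : ℕ` is the length, the mass is `1/ξ^2`.
-/

open scoped ENNReal

namespace Vale.Agent.P159.TM.Spec

open Vale.Agent.P159.H353 (wI)

/-- the torus -/
abbrev V (N : ℕ) : Type := ZMod N × ZMod N

/-- its edges -/
abbrev E (N : ℕ) : Type := V N × Bool

/-- edge kernels -/
noncomputable def kT {N : ℕ} (b : ℝ) (_ : E N) (n : ℤ) : ℝ := wI b n

/-- site weight with background `f` -/
noncomputable def aT {N : ℕ} (ξ : ℝ) (f : V N → ℝ) (v : V N) (n : ℤ) : ℝ :=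
  Real.exp (-(SpecC.ms (N := N) ξ v / 2 * ((n : ℝ) - f v) ^ 2))

lemma aT_nonneg {N : ℕ} (ξ : ℝ) (f : V N → ℝ) (v : V N) (n : ℤ) : 0 ≤ aT ξ f v n :=
  (Real.exp_pos _).le

lemma aT_even {N : ℕ} (ξ : ℝ) (v : V N) (n : ℤ) :
    aT ξ (0 : V N → ℝ) v (-n) = aT ξ 0 v n := by
  unfold aT
  congr 2
  simp

section

variable (N : ℕ) [NeZero N] (b : ℝ) (ξ : ℕ)

/-- `G(w) = Cov_0(h_0, h_w)` -/
noncomputable def GT (w : V N) : ℝ :=
  H104.Cf (SpecC.wT b N) (SpecC.ms (ξ : ℝ)) 0 (fun h => (h 0 : ℝ)) fun h => (h w : ℝ)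

/-- two copies in the background `f` -/
noncomputable def σ2 (hb : 0 ≤ b) (f : V N → ℝ) : H60.Sys (V N) (E N) (ℤ × ℤ) :=
  H60.two H459.tS H459.tT (kT b) (fun _ n => H353.wI_nonneg hb n) (fun _ => T1.H897.logC_wI hb)
    (aT (ξ : ℝ) f) (aT_nonneg (ξ : ℝ) f)

/-- one copy, background `0` -/
noncomputable def σ1 (hb : 0 ≤ b) : H60.Sys (V N) (E N) ℤ :=
  H60.one H459.tS H459.tT (kT b) (fun _ n => H353.wI_nonneg hb n) (fun _ n => H353.wI_neg _ n)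
    (fun _ => T1.H897.logC_wI hb) (aT (ξ : ℝ) 0) (aT_nonneg (ξ : ℝ) 0) (aT_even (ξ : ℝ))

end

/-! ### cluster functionals (576's letters, values in `[0,∞]`) -/

section

variable {N : ℕ} [NeZero N] {S : Type*}

/-- `sum_{u,v ∈ B, u <-> v} |d_u| |d_v| 1{the cluster leaves Λ}` -/
noncomputable def WF (σ : H60.Sys (V N) (E N) S) (B Λ : Finset (V N)) (x : V N → S)
    (om : Finset (E N)) : ℝ≥0∞ :=
  ∑ u ∈ B, ∑ v ∈ B, ((H576.mf σ x om u u * H576.mf σ x om u v : ℕ) : ℝ≥0∞) *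
    H576.ind (∃ z, z ∉ Λ ∧ H576.mf σ x om u z ≠ 0)

/-- `sum_{u,v ∈ Λ, u <-> v} |d_u| |d_v| 1{the cluster meets B}` -/
noncomputable def XF (σ : H60.Sys (V N) (E N) S) (Λ B : Finset (V N)) (x : V N → S)
    (om : Finset (E N)) : ℝ≥0∞ :=
  ∑ u ∈ Λ, ∑ v ∈ Λ, ((H576.mf σ x om u u * H576.mf σ x om u v : ℕ) : ℝ≥0∞) *
    H576.ind (∃ z ∈ B, H576.mf σ x om u z ≠ 0)

/-- `E F <= r` for the normalised law -/
def Ele (σ : H60.Sys (V N) (E N) S) (F : (V N → S) → Finset (E N) → ℝ≥0∞) (r : ℝ) : Prop :=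
  H576.Ex σ F ≤ ENNReal.ofReal r * H576.Ex σ fun _ _ => 1

/-- the event `O_x^+` at radius `r` with mass `μ` (459's letters) -/
def OT (μ r : ℕ) (x0 : V N) (x : V N → ℤ × ℤ) (om : Finset (E N)) : Prop :=
  H459.OEv H459.tS H459.tT (H459.ball x0 r) (H459.ball x0 (2 * r)) (H459.ball x0 (4 * r)) μ
    (fun v => (x v).1 - (x v).2) om

/-- slowly varying backgrounds (sup distance, 857's `Lip` for `d = H459.sd`) -/
def LipS (L : ℝ) (f : V N → ℝ) : Prop := ∀ z w, |f z - f w| ≤ L * H459.sd z w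

end

end Vale.Agent.P159.TM.Spec
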