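import Vale.Agent.P159.TM.Spec.Tor

/-!
P159 / T1, row SPECAB: LITERAL STATEMENTS of Theorem A, of the circuits A6 and of Theorem B on the
torus, uniformly for `b ∈ [b1, b2]`. Letters: `TM/Spec/Tor.lean`.

Order of constants everywhere: `b1 b2 a` (and `c₀ δ A` in part B), then a threshold `W₀` of the
window, then for every `W ≥ W₀` the constants `c C η ys X`.
-/

open scoped ENNReal

namespace Vale.Agent.P159.TM.Spec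

/-- the standing range of one scale: `ξ` and `K = N / ξ` large, `y` small, `(QU) + (H2)` -/
structure Rng (b1 b2 a W ys : ℝ) (X N : ℕ) [NeZero N] (b : ℝ) (ξ : ℕ) (y : ℝ) : Prop where
  hb1 : b1 ≤ b
  hb2 : b ≤ b2
  hX : X ≤ ξ
  hK : X * ξ ≤ N
  hd : ξ ∣ N
  y0 : 0 ≤ y
  y1 : y ≤ ys
  hyp : H764.Hyp 10 W (ξ : ℝ) (GT N b ξ) y a

/-- THEOREM A (617 A1-A4; 352 `Gas.W_exp`, `Gas.Xi_bound` + A34I): one copy, background `0`, up to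
distance `c ξ / y`: (1) clusters of `{h ≠ 0}` meeting a block of radius `ξ` which leave the ball of
radius `n`; (2) squared mass in that ball of the clusters meeting the block -/
def ThmA (b1 b2 a : ℝ) : Prop :=
  ∃ W₀ : ℝ, ∀ W : ℝ, W₀ ≤ W → ∃ c C ys : ℝ, ∃ X : ℕ, 0 < c ∧ 0 < C ∧ 0 < ys ∧ 1 ≤ X ∧
    ∀ (N : ℕ) [NeZero N] (b : ℝ) (hb : 0 ≤ b) (ξ : ℕ) (y : ℝ),
      Rng b1 b2 a W ys X N b ξ y → ∀ (x0 : V N) (n : ℕ), (n : ℝ) * y ≤ c * ξ →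
        Ele (σ1 N b ξ hb) (WF (σ1 N b ξ hb) (H459.ball x0 ξ) (H459.ball x0 n))
          (C * (ξ : ℝ) ^ 4 * Real.exp (-(c * n / ξ))) ∧
        Ele (σ1 N b ξ hb) (XF (σ1 N b ξ hb) (H459.ball x0 n) (H459.ball x0 ξ))
          (C * (ξ : ℝ) ^ 4)

/-- THEOREM A, summed form on tori with `N <= ξ y^(-3)` (356 (R1) of #15185); consumers: CHORD,
TransQ -/
def ThmAexp (b1 b2 a : ℝ) : Prop :=
  ∃ W₀ : ℝ, ∀ W : ℝ, W₀ ≤ W → ∃ c C ys : ℝ, ∃ X : ℕ, 0 < c ∧ 0 < C ∧ 0 < ys ∧ 1 ≤ X ∧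
    ∀ (N : ℕ) [NeZero N] (b : ℝ) (ξ : ℕ) (y : ℝ),
      Rng b1 b2 a W ys X N b ξ y → (N : ℝ) * y ^ 3 ≤ ξ →
        ∑ w : V N, GT N b ξ w * Real.exp (c * H459.sn w / ξ) ≤ C * (ξ : ℝ) ^ 2

/-- the probability of `O_x^+` in the background `f` (a real number in `[0,1]`) -/
noncomputable def PO (N : ℕ) [NeZero N] (b : ℝ) (ξ : ℕ) (hb : 0 ≤ b) (μ r : ℕ) (f : V N → ℝ)
    (x0 : V N) : ℝ :=
  (H576.Ex (σ2 N b ξ hb f) (fun x om => H576.ind (OT μ r x0 x om)) /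
    H576.Ex (σ2 N b ξ hb f) fun _ _ => 1).toReal

/-- A6 (circuits at background `0`, radius `r = ξ / A`, mass `⌊δ ξ²⌋`) -/
def ThmA6 (b1 b2 a : ℝ) : Prop :=
  ∃ W₀ : ℝ, ∀ W : ℝ, W₀ ≤ W → ∃ c₀ δ ys : ℝ, ∃ A X : ℕ, 0 < c₀ ∧ 0 < δ ∧ 0 < ys ∧ 8 ≤ A ∧
    A ≤ X ∧
    ∀ (N : ℕ) [NeZero N] (b : ℝ) (hb : 0 ≤ b) (ξ : ℕ) (y : ℝ),
      Rng b1 b2 a W ys X N b ξ y → ∀ x0 : V N,
        c₀ ≤ PO N b ξ hb ⌊δ * (ξ : ℝ) ^ 2⌋₊ (ξ / A) 0 x0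

/-- B1: circuits everywhere in ANY real background `f` give exponential clustering; tori with
`V kappa <= η` -/
def ThmB1 (b1 b2 a c₀ δ : ℝ) (A : ℕ) : Prop :=
  ∃ W₀ : ℝ, ∀ W : ℝ, W₀ ≤ W → ∃ c C η ys : ℝ, ∃ X : ℕ, 0 < c ∧ 0 < C ∧ 0 < η ∧ 0 < ys ∧
    1 ≤ X ∧
    ∀ (N : ℕ) [NeZero N] (b : ℝ) (hb : 0 ≤ b) (ξ : ℕ) (y : ℝ),
      Rng b1 b2 a W ys X N b ξ y → (N : ℝ) ^ 2 * y ≤ η * (ξ : ℝ) ^ 2 → ∀ f : V N → ℝ,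
      (∀ x0, c₀ ≤ PO N b ξ hb ⌊δ * (ξ : ℝ) ^ 2⌋₊ (ξ / A) f x0) →
      ∀ (x0 : V N) (n : ℕ),
        Ele (σ2 N b ξ hb f) (WF (σ2 N b ξ hb f) (H459.ball x0 ξ) (H459.ball x0 n))
          (C * (ξ : ℝ) ^ 4 * Real.exp (-(c * n / ξ)))

/-- H2 (locality of `P_f(O_x^+)`, consumer: 857's `B4`): circuits everywhere along the segment -/
def ThmH2 (b1 b2 a c₀ δ : ℝ) (A : ℕ) : Prop :=
  ∃ W₀ : ℝ, ∀ W : ℝ, W₀ ≤ W → ∃ c C η ys : ℝ, ∃ X : ℕ, 0 < c ∧ 0 < C ∧ 0 < η ∧ 0 < ys ∧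
    1 ≤ X ∧
    ∀ (N : ℕ) [NeZero N] (b : ℝ) (hb : 0 ≤ b) (ξ : ℕ) (y : ℝ),
      Rng b1 b2 a W ys X N b ξ y → (N : ℝ) ^ 2 * y ≤ η * (ξ : ℝ) ^ 2 → ∀ f g : V N → ℝ,
      (∀ s : ℝ, 0 ≤ s → s ≤ 1 → ∀ x0,
        c₀ ≤ PO N b ξ hb ⌊δ * (ξ : ℝ) ^ 2⌋₊ (ξ / A) (fun z => (1 - s) * f z + s * g z) x0) →
      ∀ (x0 : V N) (n : ℕ), (∀ z, |f z - g z| ≤ 1) → (∀ z ∈ H459.ball x0 n, f z = g z) →
        |PO N b ξ hb ⌊δ * (ξ : ℝ) ^ 2⌋₊ (ξ / A) f x0 -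
          PO N b ξ hb ⌊δ * (ξ : ℝ) ^ 2⌋₊ (ξ / A) g x0| ≤ C * Real.exp (-(c * n / ξ))

/-- THEOREM B (output): exponential clustering in all slowly varying backgrounds; tori with
`V kappa <= η`; the second clause is literally 907's input -/
def ThmB (b1 b2 a : ℝ) : Prop :=
  ∃ W₀ : ℝ, ∀ W : ℝ, W₀ ≤ W → ∃ L₀ c C η ys : ℝ, ∃ X : ℕ, 0 < L₀ ∧ 0 < c ∧ 0 < C ∧ 0 < η ∧
    0 < ys ∧ 1 ≤ X ∧
    ∀ (N : ℕ) [NeZero N] (b : ℝ) (hb : 0 ≤ b) (ξ : ℕ) (y : ℝ),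
      Rng b1 b2 a W ys X N b ξ y → (N : ℝ) ^ 2 * y ≤ η * (ξ : ℝ) ^ 2 →
      (∀ f : V N → ℝ, LipS (2 * L₀ / ξ) f → ∀ (x0 : V N) (n : ℕ),
        Ele (σ2 N b ξ hb f) (WF (σ2 N b ξ hb f) (H459.ball x0 ξ) (H459.ball x0 n))
          (C * (ξ : ℝ) ^ 4 * Real.exp (-(c * n / ξ)))) ∧
      SpecC.BOut (SpecC.wT b N) (ξ : ℝ) (L₀ / ξ) C c

/-- what the assembly of part B has to prove -/
def GlueB (b1 b2 a : ℝ) : Prop :=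
  ThmA b1 b2 a → ThmA6 b1 b2 a →
    (∀ c₀ δ A, 0 < c₀ → 0 < δ → 8 ≤ A → ThmB1 b1 b2 a c₀ δ A) →
    (∀ c₀ δ A, 0 < c₀ → 0 < δ → 8 ≤ A → ThmH2 b1 b2 a c₀ δ A) → ThmB b1 b2 a

end Vale.Agent.P159.TM.Spec
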